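import Mathlib

open Filter Topology MeasureTheory Set
open scoped NNReal ENNReal

namespace Vale.Agent.P124.R2

/-! Part A3: a Lipschitz map from a separable Banach space into a Banach space `W` for which the
finite-dimensional Rademacher theorem holds is Gateaux differentiable at some point of every
nonempty open set.  The point is found with an infinite product measure. -/

/-- replace the first `n` coordinates of a sequence -/
def splice (n : ℕ) (p : (Fin n → ℝ) × (ℕ → ℝ)) : ℕ → ℝ :=
  fun i => if h : i < n then p.1 ⟨i, h⟩ else p.2 i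

lemma measurable_splice (n : ℕ) : Measurable (splice n) := by
  refine measurable_pi_iff.2 fun i => ?_
  unfold splice
  by_cases h : i < n
  · simp only [h, dite_true]; fun_prop
  · simp only [h, dite_false]; fun_prop

/-- uniform measure on `[0,1]`, as a measure on `ℝ` -/
noncomputable def unif : Measure ℝ := volume.restrict (Icc (0 : ℝ) 1)

instance : IsProbabilityMeasure unif := ⟨by simp [unif]⟩

lemma map_splice (n : ℕ) :
    ((Measure.pi (fun _ : Fin n => unif)).prod
      (Measure.infinitePi (fun _ : ℕ => unif))).map (splice n)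
      = Measure.infinitePi (fun _ : ℕ => unif) := by
  classical
  refine Measure.eq_infinitePi _ fun s t ht => ?_
  have hmeas : MeasurableSet (Set.pi (s : Set ℕ) t) :=
    MeasurableSet.pi s.countable_toSet fun i _ => ht i
  rw [Measure.map_apply (measurable_splice n) hmeas]
  have hpre : splice n ⁻¹' (Set.pi (s : Set ℕ) t) =
      (Set.pi univ (fun i : Fin n => if (i : ℕ) ∈ s then t i else univ)) ×ˢ
        (Set.pi ((s.filter (fun i => ¬ i < n) : Finset ℕ) : Set ℕ) t) := by
    ext ⟨z, ω⟩
    simp only [mem_preimage, Set.mem_pi, Finset.mem_coe, mem_prod, mem_univ, true_imp_iff,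
      Finset.mem_filter, splice]
    constructor
    · intro h
      constructor
      · intro i
        by_cases hi : (i : ℕ) ∈ s
        · have := h i hi
          simpa [hi] using this
        · simp [hi]
      · intro i hi
        have := h i hi.1
        simpa [hi.2] using this
    · rintro ⟨h1, h2⟩ i hi
      by_cases hin : i < n
      · have := h1 ⟨i, hin⟩
        simpa [hi, hin] using this
      · have := h2 i ⟨hi, hin⟩
        simpa [hin] using this
  rw [hpre, Measure.prod_prod, Measure.pi_pi, Measure.infinitePi_pi _ (fun i _ => ht i)]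
  rw [← Finset.prod_filter_mul_prod_filter_not s (fun i => i < n)]
  congr 1
  have h1 : ∀ i : Fin n, unif (if (i : ℕ) ∈ s then t i else univ)
      = (fun j : ℕ => if j ∈ s then unif (t j) else 1) i := by
    intro i
    by_cases hi : (i : ℕ) ∈ s
    · simp [hi]
    · simp [hi]
  rw [Finset.prod_congr rfl (fun i _ => h1 i)]
  rw [Fin.prod_univ_eq_prod_range (fun j : ℕ => if j ∈ s then unif (t j) else 1) n]
  rw [Finset.prod_ite, Finset.prod_const_one, mul_one]
  refine Finset.prod_congr ?_ fun _ _ => rfl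
  ext i
  simp [and_comm]

/-- clamp to `[0,1]` -/
noncomputable def clamp (x : ℝ) : ℝ := max 0 (min x 1)

lemma continuous_clamp : Continuous clamp := by unfold clamp; fun_prop

lemma clamp_of_mem {x : ℝ} (hx : x ∈ Icc (0 : ℝ) 1) : clamp x = x := by
  simp [clamp, hx.1, hx.2]

lemma clamp_zero : clamp 0 = 0 := by simp [clamp]

lemma norm_clamp_le (x : ℝ) : ‖clamp x‖ ≤ 1 := by
  rw [Real.norm_eq_abs, abs_le]
  unfold clamp
  refine ⟨by linarith [le_max_left (0 : ℝ) (min x 1)], max_le zero_le_one (min_le_right _ _)⟩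

section point

variable {V : Type*} [NormedAddCommGroup V] [NormedSpace ℝ V] [CompleteSpace V]

/-- the random point -/
noncomputable def pt (y₀ : V) (u : ℕ → V) (ω : ℕ → ℝ) : V := y₀ + ∑' i, clamp (ω i) • u i

omit [CompleteSpace V] in
lemma norm_clamp_smul_le (x : ℝ) (v : V) : ‖clamp x • v‖ ≤ ‖v‖ := by
  rw [norm_smul]
  exact mul_le_of_le_one_left (norm_nonneg _) (norm_clamp_le _)

lemma continuous_pt (y₀ : V) {u : ℕ → V} (hu : Summable (fun i => ‖u i‖)) :
    Continuous (pt y₀ u) := by
  refine continuous_const.add (continuous_tsum (fun i => ?_) hu fun i ω => ?_)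
  · exact (continuous_clamp.comp (continuous_apply i)).smul continuous_const
  · exact norm_clamp_smul_le _ _

lemma summable_pt {u : ℕ → V} (hu : Summable (fun i => ‖u i‖)) (ω : ℕ → ℝ) :
    Summable (fun i => clamp (ω i) • u i) :=
  Summable.of_norm_bounded hu fun _ => norm_clamp_smul_le _ _

lemma pt_splice (y₀ : V) {u : ℕ → V} (hu : Summable (fun i => ‖u i‖)) (n : ℕ)
    (z : Fin n → ℝ) (ω : ℕ → ℝ) :
    pt y₀ u (splice n (z, ω)) = pt y₀ u (splice n (0, ω)) + ∑ i : Fin n, clamp (z i) • u i := by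
  unfold pt
  rw [add_assoc]
  congr 1
  rw [← sub_eq_iff_eq_add', ← (summable_pt hu _).tsum_sub (summable_pt hu _)]
  rw [tsum_eq_sum (s := Finset.range n)]
  · rw [Finset.sum_range]
    refine Finset.sum_congr rfl fun i _ => ?_
    simp [splice, clamp_zero]
  · intro i hi
    have hi' : ¬ i < n := by simpa using hi
    simp [splice, hi']

lemma null_of_null [MeasurableSpace V] [BorelSpace V] (y₀ : V) {u : ℕ → V}
    (hu : Summable (fun i => ‖u i‖)) (n : ℕ) {B : Set V} (hB : MeasurableSet B)
    (h : ∀ y : V, (volume : Measure (Fin n → ℝ)) {z | y + ∑ i : Fin n, z i • u i ∈ B} = 0) :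
    Measure.infinitePi (fun _ : ℕ => unif) (pt y₀ u ⁻¹' B) = 0 := by
  have hm0 : MeasurableSet (pt y₀ u ⁻¹' B) := (continuous_pt y₀ hu).measurable hB
  rw [← map_splice n, Measure.map_apply (measurable_splice n) hm0]
  have hm : MeasurableSet (splice n ⁻¹' (pt y₀ u ⁻¹' B)) := measurable_splice n hm0
  rw [Measure.prod_apply_symm hm]
  refine (lintegral_congr fun ω => ?_).trans lintegral_zero
  have hpi : Measure.pi (fun _ : Fin n => unif)
      = (volume : Measure (Fin n → ℝ)).restrict (Set.univ.pi fun _ => Icc (0 : ℝ) 1) := by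
    rw [volume_pi, Measure.restrict_pi_pi]
    rfl
  rw [hpi, Measure.restrict_apply' (MeasurableSet.univ_pi fun _ => measurableSet_Icc)]
  refine measure_mono_null ?_ (h (pt y₀ u (splice n (0, ω))))
  rintro z ⟨hz1, hz2⟩
  simp only [mem_preimage] at hz1
  rw [pt_splice y₀ hu] at hz1
  have : ∑ i : Fin n, clamp (z i) • u i = ∑ i : Fin n, z i • u i :=
    Finset.sum_congr rfl fun i _ => by rw [clamp_of_mem (hz2 i (mem_univ i))]
  rw [this] at hz1
  exact hz1

end point

section main

variable {V : Type*} [NormedAddCommGroup V] [NormedSpace ℝ V] 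
    {W : Type*} [NormedAddCommGroup W] [NormedSpace ℝ W]

/-- the linear map `z ↦ ∑ z i • u i` -/
noncomputable def comb (u : ℕ → V) (n : ℕ) : (Fin n → ℝ) →L[ℝ] V :=
  ∑ i : Fin n, (ContinuousLinearMap.proj (R := ℝ) (φ := fun _ : Fin n => ℝ) i).smulRight (u i)

lemma comb_apply (u : ℕ → V) (n : ℕ) (z : Fin n → ℝ) : comb u n z = ∑ i : Fin n, z i • u i := by
  simp [comb]

/-- Extension step: if the line derivatives at `v₀` exist along a dense sequence and are additive
on it, then they exist everywhere and are given by a continuous linear map. -/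
lemma extend_derivative [CompleteSpace W] {g : V → W} {L : ℝ≥0} (hg : LipschitzWith L g)
    {v₀ : V} {d : ℕ → V} (hd : DenseRange d)
    (hadd : ∀ i j : ℕ, ∃ a b : W, HasLineDerivAt ℝ g a v₀ (d i) ∧ HasLineDerivAt ℝ g b v₀ (d j) ∧
      HasLineDerivAt ℝ g (a + b) v₀ (d i + d j)) :
    ∃ S : V →L[ℝ] W, ∀ v : V,
      Tendsto (fun t : ℝ => t⁻¹ • (g (v₀ + t • v) - g v₀)) (𝓝[≠] 0) (𝓝 (S v)) := by
  -- difference quotients are uniformly Lipschitz
  have hq : ∀ (t : ℝ) (v w : V), ‖t⁻¹ • (g (v₀ + t • v) - g v₀) - t⁻¹ • (g (v₀ + t • w) - g v₀)‖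
      ≤ L * ‖v - w‖ := by
    intro t v w
    rw [← smul_sub, sub_sub_sub_cancel_right, norm_smul]
    by_cases ht : t = 0
    · simp [ht]; positivity
    have h1 : ‖g (v₀ + t • v) - g (v₀ + t • w)‖ ≤ L * (‖t‖ * ‖v - w‖) := by
      have := hg.norm_sub_le (v₀ + t • v) (v₀ + t • w)
      rwa [add_sub_add_left_eq_sub, ← smul_sub, norm_smul] at this
    calc ‖t⁻¹‖ * ‖g (v₀ + t • v) - g (v₀ + t • w)‖ ≤ ‖t⁻¹‖ * (L * (‖t‖ * ‖v - w‖)) := by gcongr
      _ = L * ‖v - w‖ := by
        rw [norm_inv]
        have : ‖t‖ ≠ 0 := norm_ne_zero_iff.2 ht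
        field_simp
  have hex : ∀ v : V, ∃ a : W, HasLineDerivAt ℝ g a v₀ v := by
    intro v
    simp only [hasLineDerivAt_iff_tendsto_slope_zero]
    refine cauchy_map_iff_exists_tendsto.1 ?_
    rw [Metric.cauchy_iff]
    refine ⟨inferInstance, fun ε hε => ?_⟩
    obtain ⟨i, hi⟩ : ∃ i, L * ‖v - d i‖ < ε / 4 := by
      obtain ⟨i, hi⟩ := hd.exists_dist_lt v (show 0 < ε / 4 / (L + 1) by positivity)
      refine ⟨i, ?_⟩
      rw [dist_eq_norm] at hi
      have hL : (0 : ℝ) ≤ L := L.2
      rw [lt_div_iff₀ (by positivity)] at hi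
      nlinarith [norm_nonneg (v - d i)]
    obtain ⟨a, b, ha, -, -⟩ := hadd i i
    have ha' := ha.tendsto_slope_zero
    rw [Metric.tendsto_nhds] at ha'
    have h4 := ha' (ε / 4) (by positivity)
    refine ⟨_, Filter.image_mem_map h4, ?_⟩
    rintro _ ⟨s, hs, rfl⟩ _ ⟨t, ht, rfl⟩
    simp only [mem_ofPred_eq] at hs ht
    have e1 := hq s v (d i)
    have e2 := hq t v (d i)
    rw [← dist_eq_norm] at e1 e2
    calc dist _ _ ≤ dist (s⁻¹ • (g (v₀ + s • v) - g v₀)) (s⁻¹ • (g (v₀ + s • d i) - g v₀)) +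
          dist (s⁻¹ • (g (v₀ + s • d i) - g v₀)) a + dist a (t⁻¹ • (g (v₀ + t • d i) - g v₀)) +
          dist (t⁻¹ • (g (v₀ + t • d i) - g v₀)) (t⁻¹ • (g (v₀ + t • v) - g v₀)) := by
            refine (dist_triangle _ (t⁻¹ • (g (v₀ + t • d i) - g v₀)) _).trans ?_
            gcongr
            refine (dist_triangle _ a _).trans ?_
            gcongr
            exact dist_triangle _ _ _
      _ < ε := by
            rw [dist_comm a, dist_comm _ (t⁻¹ • (g (v₀ + t • v) - g v₀))]
            linarith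
  choose D hD using hex
  have hlip : ∀ v w, ‖D v - D w‖ ≤ L * ‖v - w‖ := by
    intro v w
    have h1 := ((hD v).tendsto_slope_zero.sub (hD w).tendsto_slope_zero).norm
    exact le_of_tendsto h1 (Eventually.of_forall fun t => hq t v w)
  have hcont : Continuous D :=
    (LipschitzWith.of_dist_le_mul (K := L) fun v w => by
      simpa [dist_eq_norm] using hlip v w).continuous
  have hDadd : ∀ v w, D (v + w) = D v + D w := by
    intro v w
    refine DenseRange.induction_on₂ (p := fun v w => D (v + w) = D v + D w) hd ?_ ?_ v w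
    · exact isClosed_eq (by fun_prop) (by fun_prop)
    · intro i j
      obtain ⟨a, b, ha, hb, hab⟩ := hadd i j
      have := HasDerivAt.unique (hD (d i)) ha
      have := HasDerivAt.unique (hD (d j)) hb
      have := HasDerivAt.unique (hD (d i + d j)) hab
      simp_all
  have hDsmul : ∀ (c : ℝ) (v : V), D (c • v) = c • D v := by
    intro c v
    exact HasDerivAt.unique (hD (c • v)) ((hD v).smul c)
  let S₀ : V →ₗ[ℝ] W := { toFun := D, map_add' := hDadd, map_smul' := hDsmul }
  refine ⟨⟨S₀, hcont⟩, fun v => ?_⟩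
  exact (hD v).tendsto_slope_zero

lemma hasLineDerivAt_comb {g : V → W} {v₀ : V} (u : ℕ → V) (n : ℕ)
    (h : DifferentiableAt ℝ (fun z : Fin n → ℝ => g (v₀ + ∑ i : Fin n, z i • u i)) 0)
    (c : Fin n → ℝ) :
    HasLineDerivAt ℝ g
      (fderiv ℝ (fun z : Fin n → ℝ => g (v₀ + ∑ i : Fin n, z i • u i)) 0 c) v₀ (comb u n c) := by
  have h1 := h.hasFDerivAt.hasLineDerivAt c
  unfold HasLineDerivAt at h1 ⊢
  refine h1.congr_of_eventuallyEq (Eventually.of_forall fun t => ?_)
  simp only [zero_add]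
  rw [← comb_apply, map_smul]

/-- **Part A3.** -/
theorem exists_gateaux [CompleteSpace V] [TopologicalSpace.SeparableSpace V] [CompleteSpace W]
    (hW : ∀ (n : ℕ) (G : (Fin n → ℝ) → W) (L : ℝ≥0), LipschitzWith L G →
      ∀ᵐ z : Fin n → ℝ, DifferentiableAt ℝ G z)
    (g : V → W) (L : ℝ≥0) (hg : LipschitzWith L g) (O : Set V) (hO : IsOpen O)
    (hne : O.Nonempty) :
    ∃ v₀ ∈ O, ∃ S : V →L[ℝ] W, ∀ v : V,
      Tendsto (fun t : ℝ => t⁻¹ • (g (v₀ + t • v) - g v₀)) (𝓝[≠] 0) (𝓝 (S v)) := by
  classical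
  obtain ⟨y₀, hy₀⟩ := hne
  obtain ⟨δ, hδ, hball⟩ := Metric.isOpen_iff.1 hO y₀ hy₀
  have : Nonempty V := ⟨0⟩
  let d : ℕ → V := TopologicalSpace.denseSeq V
  have hd : DenseRange d := TopologicalSpace.denseRange_denseSeq V
  let r : ℕ → ℝ := fun j => δ / 4 * (1 / 2) ^ j / (1 + ‖d j‖)
  have hr : ∀ j, 0 < r j := fun j => by positivity
  let u : ℕ → V := fun j => r j • d j
  have hub : ∀ j, ‖u j‖ ≤ δ / 4 * (1 / 2) ^ j := by
    intro j
    show ‖r j • d j‖ ≤ _
    rw [norm_smul, Real.norm_of_nonneg (hr j).le]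
    show δ / 4 * (1 / 2) ^ j / (1 + ‖d j‖) * ‖d j‖ ≤ _
    rw [div_mul_eq_mul_div, div_le_iff₀ (by positivity)]
    have : (0 : ℝ) ≤ δ / 4 * (1 / 2) ^ j := by positivity
    nlinarith [norm_nonneg (d j)]
  have hgeom : HasSum (fun j : ℕ => δ / 4 * (1 / 2 : ℝ) ^ j) (δ / 4 * 2) :=
    hasSum_geometric_two.mul_left _
  have hu : Summable (fun i => ‖u i‖) :=
    Summable.of_nonneg_of_le (fun _ => norm_nonneg _) hub hgeom.summable
  let _ : MeasurableSpace V := borel V
  have : BorelSpace V := ⟨rfl⟩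
  -- bad sets
  let B : ℕ → Set V := fun n =>
    {y | ¬ DifferentiableAt ℝ (fun z : Fin n → ℝ => g (y + ∑ i : Fin n, z i • u i)) 0}
  have hB : ∀ n, MeasurableSet (B n) := by
    intro n
    have hc : Continuous (Function.uncurry
        (fun (y : V) (z : Fin n → ℝ) => g (y + ∑ i : Fin n, z i • u i))) := by
      refine hg.continuous.comp ?_
      refine continuous_fst.add ?_
      refine continuous_finsetSum _ fun i _ => ?_
      exact ((continuous_apply i).comp continuous_snd).smul continuous_const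
    have h1 := measurableSet_of_differentiableAt_with_param ℝ hc
    have h2 : MeasurableSet ((fun y : V => (y, (0 : Fin n → ℝ))) ⁻¹'
        {p : V × (Fin n → ℝ) | DifferentiableAt ℝ
          ((fun (y : V) (z : Fin n → ℝ) => g (y + ∑ i : Fin n, z i • u i)) p.1) p.2}) :=
      measurable_prodMk_right h1
    exact h2.compl
  have hnull : ∀ n, Measure.infinitePi (fun _ : ℕ => unif) (pt y₀ u ⁻¹' (B n)) = 0 := by
    intro n
    refine null_of_null y₀ hu n (hB n) fun y => ?_
    have hLip : LipschitzWith (L * ‖comb u n‖₊)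
        (fun z : Fin n → ℝ => g (y + ∑ i : Fin n, z i • u i)) := by
      have h1 : LipschitzWith (1 * ‖comb u n‖₊) (fun z : Fin n → ℝ => y + comb u n z) := by
        refine LipschitzWith.comp (g := fun z => comb u n z) (f := fun w => y + w) ?_
          (comb u n).lipschitz
        exact (isometry_add_left y).lipschitz
      rw [one_mul] at h1
      have := hg.comp h1
      simpa [Function.comp_def, comb_apply] using this
    have hae := hW n _ _ hLip
    rw [ae_iff] at hae
    refine measure_mono_null ?_ hae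
    intro z hz hdiff
    apply hz
    have h3 : DifferentiableAt ℝ (fun z' : Fin n → ℝ => z + z') 0 := by fun_prop
    have h4 : DifferentiableAt ℝ (fun z : Fin n → ℝ => g (y + ∑ i : Fin n, z i • u i))
        (z + (0 : Fin n → ℝ)) := by rwa [add_zero]
    have h5 := DifferentiableAt.comp (0 : Fin n → ℝ) h4 h3
    refine h5.congr_of_eventuallyEq (Eventually.of_forall fun z' => ?_)
    simp only [Function.comp_apply, Pi.add_apply, add_smul, Finset.sum_add_distrib, add_assoc]
  have hall : ∀ᵐ ω ∂(Measure.infinitePi (fun _ : ℕ => unif)), ∀ n, pt y₀ u ω ∉ B n := by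
    rw [ae_all_iff]
    intro n
    rw [ae_iff]
    refine measure_mono_null ?_ (hnull n)
    intro ω hω
    by_contra hcon
    exact hω hcon
  obtain ⟨ω, hω⟩ := hall.exists
  refine ⟨pt y₀ u ω, hball ?_, ?_⟩
  · rw [Metric.mem_ball, dist_eq_norm]
    have h1 : ‖∑' i, clamp (ω i) • u i‖ ≤ δ / 4 * 2 :=
      tsum_of_norm_bounded hgeom fun i => (norm_clamp_smul_le _ _).trans (hub i)
    unfold pt
    rw [add_sub_cancel_left]
    linarith
  · refine extend_derivative hg hd fun i j => ?_
    -- a common `n`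
    set n := max i j + 1 with hn
    have hi : i < n := by omega
    have hj : j < n := by omega
    have hdiff : DifferentiableAt ℝ
        (fun z : Fin n → ℝ => g (pt y₀ u ω + ∑ i : Fin n, z i • u i)) 0 := by
      have := hω n
      simpa [B] using this
    have hc : ∀ k (hk : k < n), comb u n (Pi.single ⟨k, hk⟩ (r k)⁻¹) = d k := by
      intro k hk
      rw [comb_apply, Finset.sum_eq_single ⟨k, hk⟩]
      · simp [u, smul_smul, inv_mul_cancel₀ (hr k).ne']
      · intro b _ hb
        simp [hb]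
      · simp
    have e1 := hasLineDerivAt_comb u n hdiff (Pi.single ⟨i, hi⟩ (r i)⁻¹)
    have e2 := hasLineDerivAt_comb u n hdiff (Pi.single ⟨j, hj⟩ (r j)⁻¹)
    have e3 := hasLineDerivAt_comb u n hdiff
      (Pi.single ⟨i, hi⟩ (r i)⁻¹ + Pi.single ⟨j, hj⟩ (r j)⁻¹)
    rw [map_add, map_add, hc i hi, hc j hj] at e3
    rw [hc i hi] at e1
    rw [hc j hj] at e2
    exact ⟨_, _, e1, e2, e3⟩

end main

end Vale.Agent.P124.R2
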