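import Mathlib

open Filter Topology MeasureTheory Set
open scoped NNReal ENNReal

namespace Vale.Agent.P124.R2

/-! Part A2: Rademacher's theorem for maps `ℝⁿ → lp E 1`, given the case of curves. -/

section general

variable {W : Type*} [NormedAddCommGroup W] [NormedSpace ℝ W] [CompleteSpace W]

lemma ae_lineDiff_of_curve
    (hcurve : ∀ (γ : ℝ → W) (L : ℝ≥0), LipschitzWith L γ → ∀ᵐ s : ℝ, DifferentiableAt ℝ γ s)
    {n : ℕ} {G : (Fin n → ℝ) → W} {C : ℝ≥0} (hG : LipschitzWith C G) (v : Fin n → ℝ) :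
    ∀ᵐ p : Fin n → ℝ, LineDifferentiableAt ℝ G p v := by
  let L : ℝ →L[ℝ] (Fin n → ℝ) := ContinuousLinearMap.smulRight (1 : ℝ →L[ℝ] ℝ) v
  suffices A : ∀ p, ∀ᵐ (t : ℝ) ∂volume, LineDifferentiableAt ℝ G (p + t • v) v from
    ae_mem_of_ae_add_linearMap_mem L.toLinearMap volume volume
      (measurableSet_lineDifferentiableAt hG.continuous) A
  intro p
  have : ∀ᵐ (s : ℝ), DifferentiableAt ℝ (fun t ↦ G (p + t • v)) s :=
    hcurve _ _ (hG.comp ((LipschitzWith.const p).add L.lipschitz))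
  filter_upwards [this] with s hs
  have h's : DifferentiableAt ℝ (fun t ↦ G (p + t • v)) (s + 0) := by simpa using hs
  have : DifferentiableAt ℝ (fun t ↦ s + t) 0 := differentiableAt_id.const_add _
  simp only [LineDifferentiableAt]
  convert! h's.comp 0 this with _ t
  simp only [add_assoc, Function.comp_apply, add_smul]

end general

theorem fd_ae_differentiable_of_curve (E : ℕ → Type*) [∀ i, NormedAddCommGroup (E i)]
    [∀ i, NormedSpace ℝ (E i)] [∀ i, FiniteDimensional ℝ (E i)]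
    (hcurve : ∀ (γ : ℝ → lp E 1) (L : ℝ≥0), LipschitzWith L γ →
      ∀ᵐ s : ℝ, DifferentiableAt ℝ γ s)
    (n : ℕ) (G : (Fin n → ℝ) → lp E 1) (L : ℝ≥0) (hG : LipschitzWith L G) :
    ∀ᵐ z : Fin n → ℝ, DifferentiableAt ℝ G z := by
  classical
  have : ∀ i, CompleteSpace (E i) := fun i => FiniteDimensional.complete ℝ (E i)
  -- coordinates
  have hcoord : ∀ᵐ z : Fin n → ℝ, ∀ k, DifferentiableAt ℝ (fun z => (G z : ∀ i, E i) k) z := by
    rw [ae_all_iff]
    intro k
    have h1 : LipschitzWith (1 * L) (fun z => (G z : ∀ i, E i) k) :=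
      (lp.lipschitzWith_one_eval 1 k).comp hG
    exact h1.ae_differentiableAt
  -- a countable dense set of directions
  obtain ⟨s, hsc, hsd⟩ := TopologicalSpace.exists_countable_dense (Fin n → ℝ)
  have hline : ∀ᵐ z : Fin n → ℝ, ∀ v ∈ s, LineDifferentiableAt ℝ G z v :=
    (ae_ball_iff hsc).2 fun v _ => ae_lineDiff_of_curve hcurve hG v
  have hbasis : ∀ᵐ z : Fin n → ℝ, ∀ i : Fin n,
      LineDifferentiableAt ℝ G z (Pi.single i (1 : ℝ)) := by
    rw [ae_all_iff]
    exact fun i => ae_lineDiff_of_curve hcurve hG _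
  filter_upwards [hcoord, hline, hbasis] with z h1 h2 h3
  -- the derivative
  let S : (Fin n → ℝ) →L[ℝ] lp E 1 :=
    ∑ i : Fin n, (ContinuousLinearMap.proj (R := ℝ) (φ := fun _ : Fin n => ℝ) i).smulRight
      (lineDeriv ℝ G z (Pi.single i (1 : ℝ)))
  have hS : ∀ v, S v = ∑ i : Fin n, v i • lineDeriv ℝ G z (Pi.single i (1 : ℝ)) := by
    intro v
    simp [S]
  -- coordinates of line derivatives
  have hc : ∀ (v : Fin n → ℝ) (k : ℕ), LineDifferentiableAt ℝ G z v →
      (lineDeriv ℝ G z v : lp E 1) k = fderiv ℝ (fun z => (G z : ∀ i, E i) k) z v := by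
    intro v k hv
    have e1 : HasDerivAt (fun t : ℝ => G (z + t • v)) (lineDeriv ℝ G z v) 0 := hv.hasLineDerivAt
    have e2 := (lp.evalCLM (𝕜 := ℝ) (E := E) (p := 1) k).hasFDerivAt.comp_hasDerivAt (0 : ℝ) e1
    have e3 : HasDerivAt (fun t : ℝ => (G (z + t • v) : ∀ i, E i) k)
        (fderiv ℝ (fun z => (G z : ∀ i, E i) k) z v) 0 := (h1 k).hasFDerivAt.hasLineDerivAt v
    exact e2.unique e3
  have hL : ∀ v ∈ s, HasLineDerivAt ℝ G (S v) z v := by
    intro v hv
    have e := (h2 v hv).hasLineDerivAt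
    convert e using 1
    refine lp.ext (funext fun k => ?_)
    rw [hc v k (h2 v hv), hS]
    have : (∑ i : Fin n, v i • lineDeriv ℝ G z (Pi.single i (1 : ℝ)) : lp E 1) k = ∑ i : Fin n, v i • (lineDeriv ℝ G z (Pi.single i (1 : ℝ)) : lp E 1) k := by
      rw [lp.coeFn_sum, Finset.sum_apply]
      rfl
    rw [this]
    have hv' : v = ∑ i : Fin n, v i • (Pi.single i (1 : ℝ) : Fin n → ℝ) := by
      ext j
      simp [Finset.sum_apply, Pi.single_apply]
    conv_rhs => rw [hv']
    rw [map_sum]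
    refine Finset.sum_congr rfl fun i _ => ?_
    rw [map_smul, hc _ k (h3 i)]
  have hcl : Metric.sphere (0 : Fin n → ℝ) 1 ⊆ closure s := by
    rw [hsd.closure_eq]
    exact subset_univ _
  exact (hG.hasFDerivAt_of_hasLineDerivAt_of_closure hcl hL).differentiableAt

end Vale.Agent.P124.R2
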